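import Vale.Agent.P054.MathlibUsed
import Vale.Agent.P054.H239.HOut
import Vale.Agent.P054.H239.HSeqC
import Vale.Agent.P054.H239.HFam
import Vale.Agent.P054.H239.YOut
import Vale.Agent.P054.H343.G.LocC
import Vale.Agent.P054.H25.Closed
import Vale.Agent.P054.H25.BaseN
import Vale.Agent.P054.H428.FamD

set_option autoImplicit false
set_option linter.all false

namespace Vale.Agent.Results.P054.TriangleExponents

/-- the number of distinct distances from `p` to the other points of `P` -/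
noncomputable def pinned {d : ℕ} (P : Finset (EuclideanSpace ℝ (Fin d)))
    (p : EuclideanSpace ℝ (Fin d)) : ℕ :=
  {r : ℝ | ∃ q ∈ P, q ≠ p ∧ r = dist p q}.ncard

/-- `g d n`: the least number of distinct distances determined by `n` points of `ℝ^d` -/
noncomputable def g (d n : ℕ) : ℕ :=
  sInf {k : ℕ | ∃ P : Finset (EuclideanSpace ℝ (Fin d)), P.card = n ∧
    {r : ℝ | ∃ p ∈ P, ∃ q ∈ P, p ≠ q ∧ r = dist p q}.ncard = k}

/-- `b s u v 2 = u`, `b s u v 3 = v` and, for `d ≥ 4`, `b s u v d` is the larger one of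
`(d ^ 2 + 1 + κ b s u v (d - 1)) / (2 d + κ)`, `κ = (d - 1) / (3 (d - 2))`, and
`(d ^ 2 + 1 + κ b s u v (d - 2)) / (2 d + κ)`, `κ = (d - 1) / (6 (d - 2) - s)` -/
noncomputable def b (s u v : ℝ) : ℕ → ℝ
  | 0 => 0
  | 1 => 1
  | 2 => u
  | 3 => v
  | (k + 4) => max
      ((((k + 4 : ℕ) : ℝ) ^ 2 + 1 + ((k : ℝ) + 3) / (3 * ((k : ℝ) + 2)) * b s u v (k + 3)) /
        (2 * ((k + 4 : ℕ) : ℝ) + ((k : ℝ) + 3) / (3 * ((k : ℝ) + 2))))
      ((((k + 4 : ℕ) : ℝ) ^ 2 + 1 + ((k : ℝ) + 3) / (6 * ((k : ℝ) + 2) - s) * b s u v (k + 2)) /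
        (2 * ((k + 4 : ℕ) : ℝ) + ((k : ℝ) + 3) / (6 * ((k : ℝ) + 2) - s)))

open Vale.Agent.P054I in
theorem aF_le (d : ℕ) (hd : 4 ≤ d) {γ : ℝ} (hγ : ((d : ℝ) - 1) / 2 ≤ γ) :
    aF d 12 ≤ aS d (k1C d) γ := by
  have hD : (4:ℝ) ≤ d := by exact_mod_cast hd
  refine le_trans ?_ (aS_mono d (by omega) (k1C_pos d).le hγ)
  have hκ : k1C d ≤ ((d:ℝ) - 1) / 6 := by
    rw [k1C_eq d (by omega)]
    apply div_le_div_of_nonneg_left (by linarith) (by norm_num) (by linarith)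
  have hκ0 := k1C_pos d
  unfold aF aS
  rw [div_le_div_iff₀ (by push_cast; nlinarith) (by linarith)]
  push_cast
  nlinarith [mul_nonneg (show (0:ℝ) ≤ (d:ℝ) + 1 by linarith) (sub_nonneg.mpr hκ)]

open Vale.Agent.P054I in
/-- the factor in front of the second term, `s = 0` or `s = 1` -/
noncomputable def kk (s : ℝ) (d : ℕ) : ℝ := if s = 0 then k2C d else k2D d

open Vale.Agent.P054I in
theorem kk_pos (s : ℝ) (d : ℕ) : 0 < kk s d := by
  unfold kk
  split_ifs
  · exact k2C_pos d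
  · exact k2D_pos d

open Vale.Agent.P054I in
/-- the exponents of the helper files -/
noncomputable abbrev bU (s u v : ℝ) (d : ℕ) : ℝ := bX k1C (kk s) 12 4 (iUV u v) d

open Vale.Agent.P054I in
theorem bU_low {s u v : ℝ} (hu : 1 ≤ u) (hu' : u ≤ 5 / 4) (hv : 3 / 2 ≤ v) (hv' : v ≤ 5 / 3)
    (d : ℕ) (hd : 1 ≤ d) : (d:ℝ) / 2 ≤ bU s u v d ∧ bU s u v d ≤ Vale.Agent.P054K.fd d :=
  bX_bounds (F := 12) (κ1 := k1C) (κ2 := kk s) (d0 := 4) (init := iUV u v)
    (fun d => (k1C_pos d).le) k1C_le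
    (fun d => (kk_pos s d).le) (by norm_num) (by simp [iUV]) (iUV_ok hu hu' hv hv') d hd

open Vale.Agent.P054I in
theorem kk_eq {s : ℝ} (hs : s = 0 ∨ s = 1) (k : ℕ) :
    kk s (k + 4) = ((k : ℝ) + 3) / (6 * ((k : ℝ) + 2) - s) := by
  rcases hs with rfl | rfl
  · unfold kk
    rw [if_pos rfl, k2C_eq (k + 4) (by omega)]
    push_cast
    congr 1 <;> ring
  · unfold kk
    rw [if_neg one_ne_zero, k2D_eq (k + 4) (by omega)]
    push_cast
    congr 1 <;> ring

open Vale.Agent.P054I in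
theorem b_eq {s u v : ℝ} (hs : s = 0 ∨ s = 1)
    (hu : 1 ≤ u) (hu' : u ≤ 5 / 4) (hv : 3 / 2 ≤ v) (hv' : v ≤ 5 / 3)
    (d : ℕ) : b s u v d = bU s u v d := by
  induction d using Nat.strong_induction_on with
  | _ d ih =>
    rcases Nat.lt_or_ge d 4 with h | h
    · unfold bU
      rw [bX_lt _ _ _ _ _ d h]
      interval_cases d
      · simp [b, iUV]
      · simp [b, iUV]
      · simp [b, iUV]
      · simp [b, iUV]
    · obtain ⟨k, rfl⟩ : ∃ k, d = k + 4 := ⟨d - 4, by omega⟩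
      have h1 := ih (k + 3) (by omega)
      have h2 := ih (k + 2) (by omega)
      have hlow : (((k + 4 : ℕ) : ℝ) - 1) / 2 ≤ bU s u v (k + 3) := by
        have := (bU_low (s := s) hu hu' hv hv' (k + 3) (by omega)).1
        push_cast at this ⊢
        linarith
      have e : bU s u v (k + 4) = max (max (aS (k + 4) (k1C (k + 4)) (bU s u v (k + 3)))
          (aS (k + 4) (kk s (k + 4)) (bU s u v (k + 2)))) (aF (k + 4) 12) := by
        unfold bU
        exact bX_ge _ _ _ _ _ (k + 4) (by omega) (by omega)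
      have e2 : aF (k + 4) 12 ≤ aS (k + 4) (k1C (k + 4)) (bU s u v (k + 3)) :=
        aF_le (k + 4) (by omega) hlow
      rw [e, max_eq_left (e2.trans (le_max_left _ _))]
      have e3 := kk_eq hs k
      have e4 : k1C (k + 4) = ((k : ℝ) + 3) / (3 * ((k : ℝ) + 2)) := by
        rw [k1C_eq (k + 4) (by omega)]
        push_cast
        congr 1 <;> ring
      unfold b
      rw [h1, h2]
      unfold aS
      rw [e3, e4]

theorem b_rec (s u v : ℝ) (k : ℕ) : b s u v (k + 4) = max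
      ((((k + 4 : ℕ) : ℝ) ^ 2 + 1 + ((k : ℝ) + 3) / (3 * ((k : ℝ) + 2)) * b s u v (k + 3)) /
        (2 * ((k + 4 : ℕ) : ℝ) + ((k : ℝ) + 3) / (3 * ((k : ℝ) + 2))))
      ((((k + 4 : ℕ) : ℝ) ^ 2 + 1 + ((k : ℝ) + 3) / (6 * ((k : ℝ) + 2) - s) * b s u v (k + 2)) /
        (2 * ((k + 4 : ℕ) : ℝ) + ((k : ℝ) + 3) / (6 * ((k : ℝ) + 2) - s))) := by
  conv_lhs => unfold b

theorem b_four : b 1 1 (3 / 2) 4 = 71 / 34 := by
  have h2 : b 1 1 (3 / 2) 2 = 1 := by simp [b]
  have h3 : b 1 1 (3 / 2) 3 = 3 / 2 := by simp [b]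
  have h := b_rec 1 1 (3 / 2) 0
  simp only [zero_add] at h
  rw [h2, h3] at h
  norm_num at h
  exact h

theorem b_four' : b 0 1 (3 / 2) 4 = 23 / 11 := by
  have h2 : b 0 1 (3 / 2) 2 = 1 := by simp [b]
  have h3 : b 0 1 (3 / 2) 3 = 3 / 2 := by simp [b]
  have h := b_rec 0 1 (3 / 2) 0
  simp only [zero_add] at h
  rw [h2, h3] at h
  norm_num at h
  exact h

theorem a_four : b 1 (28 / 23) (57 / 35) 4 = 1247 / 595 := by
  have h2 : b 1 (28 / 23) (57 / 35) 2 = 28 / 23 := by simp [b]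
  have h3 : b 1 (28 / 23) (57 / 35) 3 = 57 / 35 := by simp [b]
  have h := b_rec 1 (28 / 23) (57 / 35) 0
  simp only [zero_add] at h
  rw [h2, h3] at h
  norm_num at h
  exact h

theorem a_four' : b 0 (28 / 23) (57 / 35) 4 = 1592 / 759 := by
  have h2 : b 0 (28 / 23) (57 / 35) 2 = 28 / 23 := by simp [b]
  have h3 : b 0 (28 / 23) (57 / 35) 3 = 57 / 35 := by simp [b]
  have h := b_rec 0 (28 / 23) (57 / 35) 0
  simp only [zero_add] at h
  rw [h2, h3] at h
  norm_num at h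
  exact h

theorem b_pos {s u v : ℝ} (hs : s = 0 ∨ s = 1)
    (hu : 1 ≤ u) (hu' : u ≤ 5 / 4) (hv : 3 / 2 ≤ v) (hv' : v ≤ 5 / 3)
    (d : ℕ) (hd : 1 ≤ d) : 0 < b s u v d := by
  have h := (bU_low (s := s) hu hu' hv hv' d hd).1
  rw [← b_eq hs hu hu' hv hv'] at h
  have hD : (1:ℝ) ≤ d := by exact_mod_cast hd
  linarith

/-- the new exponents are smaller in every dimension -/
theorem b_lt {u v : ℝ} (hu : 1 ≤ u) (hu' : u ≤ 5 / 4) (hv : 3 / 2 ≤ v) (hv' : v ≤ 5 / 3)
    (h4 : b 1 u v 4 < b 0 u v 4) (d : ℕ) (hd : 4 ≤ d) : b 1 u v d < b 0 u v d := by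
  induction d using Nat.strong_induction_on with
  | _ d ih =>
    rcases Nat.lt_or_ge d 5 with h | h
    · have : d = 4 := by omega
      rw [this]
      exact h4
    · obtain ⟨k, rfl⟩ : ∃ k, d = k + 4 := ⟨d - 4, by omega⟩
      have i1 : b 1 u v (k + 3) < b 0 u v (k + 3) := ih (k + 3) (by omega) (by omega)
      have i2 : b 1 u v (k + 2) ≤ b 0 u v (k + 2) := by
        rcases Nat.lt_or_ge (k + 2) 4 with h5 | h5
        · have : k = 1 := by omega
          subst this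
          norm_num [b]
        · exact (ih (k + 2) (by omega) h5).le
      have i3 := (bU_low (s := 0) hu hu' hv hv' (k + 2) (by omega)).2
      rw [← b_eq (Or.inl rfl) hu hu' hv hv'] at i3
      have hk : (0:ℝ) ≤ k := Nat.cast_nonneg k
      have i4 : b 0 u v (k + 2) * (2 * ((k + 4 : ℕ) : ℝ)) < ((k + 4 : ℕ) : ℝ) ^ 2 + 1 := by
        have h6 : Vale.Agent.P054K.fd (k + 2) < Vale.Agent.P054K.fd (k + 4) := by
          have e1 := Vale.Agent.P054I.fd_pred (k + 3) (by omega)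
          have e2 := Vale.Agent.P054I.fd_pred (k + 4) (by omega)
          exact e1.trans e2
        rw [← Vale.Agent.P054I.fd_mul (k + 4) (by omega)]
        apply mul_lt_mul_of_pos_right (lt_of_le_of_lt i3 h6)
        push_cast
        positivity
      rw [b_rec, b_rec]
      apply max_lt_max
      · apply div_lt_div_of_pos_right _ (by positivity)
        have : (0:ℝ) < ((k : ℝ) + 3) / (3 * ((k : ℝ) + 2)) := by positivity
        have := mul_lt_mul_of_pos_left i1 this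
        linarith
      · have q0 : (0:ℝ) < 6 * ((k : ℝ) + 2) - 0 := by linarith
        have q1 : (0:ℝ) < 6 * ((k : ℝ) + 2) - 1 := by linarith
        have c1 : ((k : ℝ) + 3) / (6 * ((k : ℝ) + 2) - 0) < ((k : ℝ) + 3) / (6 * ((k : ℝ) + 2) - 1) := by
          apply div_lt_div_of_pos_left _ q1
          · linarith
          · linarith
        have c0 : (0:ℝ) < ((k : ℝ) + 3) / (6 * ((k : ℝ) + 2) - 0) := by positivity
        generalize ((k : ℝ) + 3) / (6 * ((k : ℝ) + 2) - 0) = κ at c0 c1 ⊢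
        generalize ((k : ℝ) + 3) / (6 * ((k : ℝ) + 2) - 1) = κ' at c1 ⊢
        have c2 : (0:ℝ) < κ' := c0.trans c1
        have d0 : (0:ℝ) < 2 * ((k + 4 : ℕ) : ℝ) := by push_cast; positivity
        have e1 : (((k + 4 : ℕ) : ℝ) ^ 2 + 1 + κ' * b 1 u v (k + 2)) / (2 * ((k + 4 : ℕ) : ℝ) + κ') ≤
            (((k + 4 : ℕ) : ℝ) ^ 2 + 1 + κ' * b 0 u v (k + 2)) / (2 * ((k + 4 : ℕ) : ℝ) + κ') := by
          apply div_le_div_of_nonneg_right _ (by positivity)
          have := mul_le_mul_of_nonneg_left i2 c2.le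
          linarith
        refine lt_of_le_of_lt e1 ?_
        rw [div_lt_div_iff₀ (by positivity) (by positivity)]
        nlinarith [mul_pos (sub_pos.mpr c1) (sub_pos.mpr i4)]

open Vale.Agent.P054I in
theorem kk_one : kk 1 = k2D := by
  funext d
  unfold kk
  rw [if_neg one_ne_zero]

open Vale.Agent.P054I in
theorem sexP (d : ℕ) : Sex d (PC d) (b 1 (28 / 23) (57 / 35) d) := by
  rw [b_eq (Or.inr rfl) (by norm_num) (by norm_num) (by norm_num) (by norm_num)]
  unfold bU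
  rw [kk_one]
  exact sexPC_uvD keyX_all (by norm_num) (by norm_num) (by norm_num) (by norm_num)
    sexPC_two sexPC_three d

open Vale.Agent.P054I in
theorem sexD (d : ℕ) : Sex d (DC d) (b 1 1 (3 / 2) d) := by
  rw [b_eq (Or.inr rfl) (by norm_num) (by norm_num) (by norm_num) (by norm_num)]
  unfold bU
  rw [kk_one]
  exact sexDC_uvD keyX_all (by norm_num) (by norm_num) (by norm_num) (by norm_num)
    sex_dc2 sex_dc3 d

theorem result :
    -- pinned distances in every dimension `d ≥ 4`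
    (∀ d : ℕ, 4 ≤ d → ∀ ε : ℝ, 0 < ε → ∃ c : ℝ, 0 < c ∧
      ∀ P : Finset (EuclideanSpace ℝ (Fin d)), 2 ≤ P.card → ∃ p ∈ P,
        c * (P.card : ℝ) ^ (1 / b 1 (28 / 23) (57 / 35) d - ε) ≤ (pinned P p : ℝ)) ∧
    -- all distances in every dimension `d ≥ 4`
    (∀ d : ℕ, 4 ≤ d → ∀ ε : ℝ, 0 < ε → ∃ c : ℝ, 0 < c ∧
      ∀ n : ℕ, 2 ≤ n → c * (n : ℝ) ^ (1 / b 1 1 (3 / 2) d - ε) ≤ ((g d n : ℕ) : ℝ)) ∧
    -- the exponents for `d = 4`
    b 1 (28 / 23) (57 / 35) 4 = 1247 / 595 ∧ b 1 1 (3 / 2) 4 = 71 / 34 ∧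
    -- the exponents are larger than the ones of the starting file `SharperExponents` (`s = 0`)
    ∀ d : ℕ, 4 ≤ d → 1 / b 0 (28 / 23) (57 / 35) d < 1 / b 1 (28 / 23) (57 / 35) d ∧
      1 / b 0 1 (3 / 2) d < 1 / b 1 1 (3 / 2) d := by
  refine ⟨?_, ?_, a_four, b_four, ?_⟩
  · intro d hd ε hε
    have hpos : 0 < b 1 (28 / 23) (57 / 35) d :=
      b_pos (Or.inr rfl) (by norm_num) (by norm_num) (by norm_num) (by norm_num) d (by omega)
    obtain ⟨c, hc, h4, -⟩ := Vale.Agent.P054I.lower_sets hpos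
      (Vale.Agent.P054I.pex_of_sex (sexP d)) ε hε
    refine ⟨c, hc, fun P hP => ?_⟩
    obtain ⟨p, hp, h5⟩ := h4 P hP
    exact ⟨p, hp, h5⟩
  · intro d hd ε hε
    have hpos : 0 < b 1 1 (3 / 2) d :=
      b_pos (Or.inr rfl) (by norm_num) (by norm_num) (by norm_num) (by norm_num) d (by omega)
    obtain ⟨c, hc, h4⟩ := Vale.Agent.P054I.lower_DC hpos (sexD d) ε hε
    refine ⟨c, hc, fun n hn => ?_⟩
    have hne : {k : ℕ | ∃ P : Finset (EuclideanSpace ℝ (Fin d)), P.card = n ∧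
        {r : ℝ | ∃ p ∈ P, ∃ q ∈ P, p ≠ q ∧ r = dist p q}.ncard = k}.Nonempty := by
      have : Infinite (EuclideanSpace ℝ (Fin d)) := by
        have : Nonempty (Fin d) := ⟨⟨0, by omega⟩⟩
        exact inferInstance
      obtain ⟨P, hP⟩ := Infinite.exists_subset_card_eq (EuclideanSpace ℝ (Fin d)) n
      exact ⟨_, P, hP, rfl⟩
    obtain ⟨P, hPn, hPk⟩ := Nat.sInf_mem hne
    have hgk : g d n = {r : ℝ | ∃ p ∈ P, ∃ q ∈ P, p ≠ q ∧ r = dist p q}.ncard := by
      unfold g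
      rw [hPk]
    rw [hgk, ← hPn]
    exact h4 P (by omega)
  · intro d hd
    have p1 : b 1 (28 / 23) (57 / 35) 4 < b 0 (28 / 23) (57 / 35) 4 := by
      rw [a_four, a_four']; norm_num
    have p2 : b 1 1 (3 / 2) 4 < b 0 1 (3 / 2) 4 := by
      rw [b_four, b_four']; norm_num
    constructor
    · exact one_div_lt_one_div_of_lt
        (b_pos (Or.inr rfl) (by norm_num) (by norm_num) (by norm_num) (by norm_num) d (by omega))
        (b_lt (by norm_num) (by norm_num) (by norm_num) (by norm_num) p1 d hd)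
    · exact one_div_lt_one_div_of_lt
        (b_pos (Or.inr rfl) (by norm_num) (by norm_num) (by norm_num) (by norm_num) d (by omega))
        (b_lt (by norm_num) (by norm_num) (by norm_num) (by norm_num) p2 d hd)

end Vale.Agent.Results.P054.TriangleExponents
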