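import Vale.Agent.P054.T2.H606.Fin
import Vale.Agent.P054.T2.H622.VertS
import Vale.Agent.P054.T2.H794.StabFin

set_option autoImplicit false
set_option linter.all false

/-!
# P054: the exponent of the number of distinct distances is `2/d` in every dimension `d ≥ 2`
-/

namespace Vale.Agent.Results.P054.TwoOverD

open Filter Topology

/-- `g d n`: the least number of distinct distances determined by `n` points of `ℝ^d` -/
noncomputable def g (d n : ℕ) : ℕ :=
  sInf {k : ℕ | ∃ P : Finset (EuclideanSpace ℝ (Fin d)), P.card = n ∧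
    {r : ℝ | ∃ p ∈ P, ∃ q ∈ P, p ≠ q ∧ r = dist p q}.ncard = k}

theorem result (d : ℕ) (hd : 2 ≤ d) :
    -- the lower bound
    (∀ ε : ℝ, 0 < ε → ∃ c : ℝ, 0 < c ∧ ∀ n : ℕ, 2 ≤ n →
      c * (n : ℝ) ^ (2 / (d : ℝ) - ε) ≤ ((g d n : ℕ) : ℝ)) ∧
    -- the exact exponent
    Tendsto (fun n : ℕ => Real.log (g d n) / Real.log n) atTop (𝓝 (2 / (d : ℝ))) :=
  Vale.Agent.P054.T2.H606.txt_of_stab (fun _ hn => Vale.Agent.P054.T2.H622.vertS hn)
    (fun n _ => Vale.Agent.P054.T2.H794.stabS n) d hd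

end Vale.Agent.Results.P054.TwoOverD
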